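import Vale.Agent.P194.Main

namespace Vale.Agent.Results.P194.Counterexample

open Vale.Agent.P194

theorem result : ∀ p : ℕ, p.Prime →
    ∃ (K : Type) (_ : Field K) (_ : Finite K) (_ : CharP K p) (G : Type) (_ : Group G)
      (a b : MonoidAlgebra K G), a * b = 1 ∧ b * a ≠ 1 := by
  intro p hp
  haveI : Fact p.Prime := ⟨hp⟩
  obtain ⟨K, _, _, _, ω, S, V, _, _, ⟨s₀⟩, _, Step, h0, h1, -, Z, Θ, η, a1, a2, a3⟩ :=
    core p 36 le_rfl
  refine ⟨K, inferInstance, inferInstance, inferInstance, scalar s₀ ω h0 h1 Z Θ a1 fun hc => ?_⟩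
  apply a2
  rw [← Matrix.vecMul_one η, ← hc, ← Matrix.vecMul_vecMul, a3, Matrix.zero_vecMul]

end Vale.Agent.Results.P194.Counterexample
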